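import Mathlib
import Vale.Agent.Lib.P262.Gadget

/-!
Euclidean prefix balancing: a constant factor above the basis lower bound. In dimension `d` there
is a finite sequence in the unit ball such that each signing has a prefix of squared norm at least
`(64 / 25) * (d / 2)`, with `d / 2` the floor. Hence the constant of dimension `d` is at least the
square root of `(32 / 25) * (d - 1)`.
-/

namespace Vale.Agent.Results.P262.LexGadget

/-- For every dimension `d` there is a finite sequence in the Euclidean unit ball of `ℝ^d` such that
every signing has a prefix (possibly empty) whose squared norm is at least `(64 / 25) * ⌊d / 2⌋`. -/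
theorem result (d : ℕ) :
    ∃ (N : ℕ) (v : Fin N → EuclideanSpace ℝ (Fin d)), (∀ i, ‖v i‖ ≤ 1) ∧
      ∀ ε : Fin N → ℝ, (∀ i, ε i = 1 ∨ ε i = -1) →
        ∃ k : ℕ, k ≤ N ∧ (64 / 25 : ℝ) * ((d / 2 : ℕ) : ℝ) ≤
          ‖∑ i : Fin N with i.val < k, ε i • v i‖ ^ 2 :=
  Vale.Agent.Lib.P262.Gadget.lower_bound d

end Vale.Agent.Results.P262.LexGadget
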