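import Mathlib
import Vale.Agent.Lib.P262.Plane
import Vale.Agent.Lib.P262.PlaneLower

/-!
Euclidean prefix balancing: the constant of the plane is exactly the square root of three,
and in dimension `n + 2` the constant is at least the square root of `n + 3`.
-/

namespace Vale.Agent.Results.P262.SigmaTwo

open scoped BigOperators

/-- First part: every finite sequence in the unit disc of the plane has signs with all prefix sums
of norm at most the square root of three. Second part: in dimension `n + 2`, for every constant
`c` below the square root of `n + 3` there is a finite sequence in the unit ball such that each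
signing has a prefix sum of norm above `c`. With `n = 0` the two parts give the exact value of the
constant of the plane. -/
theorem result :
    (∀ (N : ℕ) (v : Fin N → EuclideanSpace ℝ (Fin 2)), (∀ i, ‖v i‖ ≤ 1) →
      ∃ ε : Fin N → ℝ, (∀ i, ε i = 1 ∨ ε i = -1) ∧
        ∀ k : ℕ, k ≤ N → ‖∑ i : Fin N with i.val < k, ε i • v i‖ ≤ Real.sqrt 3) ∧
    (∀ (n : ℕ) (c : ℝ), c < Real.sqrt ((n : ℝ) + 3) →
      ∃ (N : ℕ) (v : Fin N → EuclideanSpace ℝ (Fin (n + 2))), (∀ i, ‖v i‖ ≤ 1) ∧
        ∀ ε : Fin N → ℝ, (∀ i, ε i = 1 ∨ ε i = -1) →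
          ∃ k : ℕ, k ≤ N ∧ c < ‖∑ i : Fin N with i.val < k, ε i • v i‖) :=
  ⟨Vale.Agent.Lib.P262.Plane.upper_bound, Vale.Agent.Lib.P262.PlaneLower.lower_bound⟩

end Vale.Agent.Results.P262.SigmaTwo
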