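import Mathlib
import Vale.Agent.Lib.P262.V.Final

/-!
The Euclidean Steinitz constant is at most an absolute constant times the square root of
`d (log (d + 1) + 1)`, uniformly in the number of vectors.
-/

namespace Vale.Agent.Results.P262.SteinitzSqrtLog

open scoped BigOperators

/-- There is an absolute constant `C` such that for all `d ≥ 1` and all `N`, every zero-sum family
of `N` vectors of the Euclidean unit ball of dimension `d` has an ordering whose partial sums
all have norm at most `C * sqrt (d * (log (d + 1) + 1))`. -/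
theorem result :
    ∃ C : ℝ, ∀ d : ℕ, 1 ≤ d → ∀ (N : ℕ) (v : Fin N → EuclideanSpace ℝ (Fin d)),
      (∀ i, ‖v i‖ ≤ 1) → ∑ i, v i = 0 →
        ∃ π : Equiv.Perm (Fin N), ∀ k : ℕ, k ≤ N →
          ‖∑ i : Fin N with i.val < k, v (π i)‖ ≤
            C * Real.sqrt ((d : ℝ) * (Real.log ((d : ℝ) + 1) + 1)) := by
  refine ⟨Vale.Agent.Lib.P262.V.Kc, ?_⟩
  intro d hd N v hv h0
  have hfin : Module.finrank ℝ (EuclideanSpace ℝ (Fin d)) = d := by
    simp
  have h := Vale.Agent.Lib.P262.V.steinitz_final
    (E := EuclideanSpace ℝ (Fin d)) (by rw [hfin]; exact hd) N v hv h0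
  rw [hfin] at h
  exact h

end Vale.Agent.Results.P262.SteinitzSqrtLog
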